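import Vale.Agent.P282A71.Sk

/-!
P282: a polynomial outside a prime ideal is a regular element modulo the extended ideal.
-/

open IsLocalRing MvPolynomial

namespace Vale.Agent.P282A71

section

variable {R S : Type} [CommRing R] [CommRing S] [Algebra ℂ R] [Algebra ℂ S] {f : R →ₐ[ℂ] S}
  {m : Ideal R} {n : Ideal S}

theorem JetIso.approx_map (h : JetIso f m n) (I : Ideal R) (k : ℕ) {s : S} (hs : s ∈ I.map f) :
    ∃ p ∈ I, s - f p ∈ n ^ k := by
  induction hs using Submodule.span_induction with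
  | mem x hx =>
    obtain ⟨p, hp, rfl⟩ := hx
    exact ⟨p, hp, by simp⟩
  | zero => exact ⟨0, I.zero_mem, by simp⟩
  | add x y _ _ hx hy =>
    obtain ⟨p, hp, h1⟩ := hx
    obtain ⟨q, hq, h2⟩ := hy
    refine ⟨p + q, I.add_mem hp hq, ?_⟩
    rw [map_add, add_sub_add_comm]
    exact Ideal.add_mem _ h1 h2
  | smul a x _ hx =>
    obtain ⟨p, hp, h1⟩ := hx
    obtain ⟨b, h2⟩ := h.dense k a
    refine ⟨b * p, I.mul_mem_left _ hp, ?_⟩
    rw [map_mul, smul_eq_mul, show a * x - f b * f p = a * (x - f p) + (a - f b) * f p by ring]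
    exact Ideal.add_mem _ (Ideal.mul_mem_left _ _ h1) (Ideal.mul_mem_right _ _ h2)

omit [Algebra ℂ S] in
theorem mem_of_forall_pow [IsNoetherianRing S] [IsLocalRing S] (J : Ideal S) {s : S}
    (h : ∀ k : ℕ, ∃ a ∈ J, s - a ∈ maximalIdeal S ^ k) : s ∈ J := by
  have h1 := Ideal.iInf_pow_smul_eq_bot_of_isLocalRing (M := S ⧸ J) (maximalIdeal S)
    (maximalIdeal.isMaximal S).ne_top
  rw [← Ideal.Quotient.eq_zero_iff_mem, ← Submodule.mem_bot S, ← h1, Submodule.mem_iInf]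
  intro k
  obtain ⟨a, ha, h2⟩ := h k
  have h3 : Ideal.Quotient.mk J s = (s - a) • (1 : S ⧸ J) := by
    rw [Algebra.smul_def, mul_one, Ideal.Quotient.algebraMap_eq, map_sub,
      Ideal.Quotient.eq_zero_iff_mem.2 ha, sub_zero]
  rw [h3]
  exact Submodule.smul_mem_smul h2 Submodule.mem_top

theorem JetIso.regular [IsNoetherianRing R] [IsNoetherianRing S] [IsLocalRing S]
    (h : JetIso f m (maximalIdeal S)) {I : Ideal R} (hI : I.IsPrime) {d : R} (hd : d ∉ I) {s : S}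
    (hs : f d * s ∈ I.map f) : s ∈ I.map f := by
  obtain ⟨c, hc⟩ := Ideal.exists_pow_inf_eq_pow_smul (m.map (Ideal.Quotient.mk I))
    (Ideal.span {Ideal.Quotient.mk I d})
  refine mem_of_forall_pow _ fun k => ?_
  obtain ⟨g, hg⟩ := h.dense (k + c) s
  obtain ⟨p, hp, h1⟩ := h.approx_map I (k + c) hs
  have h2 : d * g - p ∈ m ^ (k + c) := by
    rw [← h.mem, map_sub, map_mul,
      show f d * f g - f p = f d * s - f p - f d * (s - f g) by ring]
    exact Ideal.sub_mem _ h1 (Ideal.mul_mem_left _ _ hg)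
  have h3 : Ideal.Quotient.mk I (g * d) ∈ m.map (Ideal.Quotient.mk I) ^ (k + c) • ⊤ ⊓
      Ideal.span {Ideal.Quotient.mk I d} := by
    refine ⟨?_, Ideal.mem_span_singleton'.2 ⟨Ideal.Quotient.mk I g, (map_mul _ _ _).symm⟩⟩
    rw [smul_eq_mul, Ideal.mul_top, ← Ideal.map_pow]
    have h4 := Ideal.mem_map_of_mem (Ideal.Quotient.mk I) h2
    rwa [map_sub, Ideal.Quotient.eq_zero_iff_mem.2 hp, sub_zero, mul_comm] at h4
  rw [hc (k + c) (by omega), Nat.add_sub_cancel] at h3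
  have h5 := Submodule.smul_mono le_rfl inf_le_right h3
  rw [smul_eq_mul, Ideal.mem_mul_span_singleton, ← Ideal.map_pow] at h5
  obtain ⟨z, hz, h6⟩ := h5
  obtain ⟨y, hy, rfl⟩ := (Ideal.mem_map_iff_of_surjective _ Ideal.Quotient.mk_surjective).1 hz
  rw [← map_mul, Ideal.Quotient.eq, ← sub_mul] at h6
  have h7 := (hI.mem_or_mem h6).resolve_right hd
  refine ⟨f (g - y), Ideal.mem_map_of_mem _ (by simpa using I.neg_mem h7), ?_⟩
  rw [map_sub, show s - (f g - f y) = s - f g + f y by ring]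
  exact Ideal.add_mem _ (Ideal.pow_le_pow_right (by omega) hg) ((h.mem k y).2 hy)

end

theorem reg (h : JET) (N : ℕ) (I : Ideal (MvPolynomial (Fin N) ℂ)) (hI : I.IsPrime)
    (d : MvPolynomial (Fin N) ℂ) (hd : d ∉ I) (f : ON N) (hf : pl N d * f ∈ ex I) : f ∈ ex I :=
  haveI : IsNoetherianRing (ON N) := P277Z.Oka.noe _
  (h N).2.regular hI hd hf

theorem reg_pow (h : JET) (N : ℕ) (I : Ideal (MvPolynomial (Fin N) ℂ)) (hI : I.IsPrime)
    (d : MvPolynomial (Fin N) ℂ) (hd : d ∉ I) (k : ℕ) (f : ON N) (hf : pl N d ^ k * f ∈ ex I) :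
    f ∈ ex I :=
  reg h N I hI (d ^ k) (fun e => hd (hI.mem_of_pow_mem k e)) f (by rwa [map_pow])

end Vale.Agent.P282A71
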