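import Vale.Agent.P282A71.Sk

/-!
P282, row CPL.
-/

open IsLocalRing MvPolynomial

namespace Vale.Agent.P282A71

theorem factor_evalA {R : Type} [CommRing R] (m : Ideal R) {k l : ℕ} (h : k ≤ l)
    (x : AdicCompletion m R) : Ideal.Quotient.factor (Ideal.pow_le_pow_right h)
      (AdicCompletion.evalₐ m l x) = AdicCompletion.evalₐ m k x := by
  obtain ⟨a, rfl⟩ := AdicCompletion.mk_surjective m R x
  rw [AdicCompletion.evalₐ_mk, AdicCompletion.evalₐ_mk, Ideal.Quotient.factor_mk,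
    Ideal.Quotient.eq]
  have h1 := (a.property h).symm
  rw [SModEq.sub_mem] at h1
  simpa using h1

theorem exists_lift {R S : Type} [CommRing R] [CommRing S] [Algebra ℂ R] [Algebra ℂ S]
    (m : Ideal R) (n : Ideal S) (e : ∀ k : ℕ, (R ⧸ m ^ k) →ₐ[ℂ] S ⧸ n ^ k)
    (he : ∀ {k l : ℕ} (h : k ≤ l) (x : R ⧸ m ^ l),
      Ideal.Quotient.factor (Ideal.pow_le_pow_right h) (e l x) =
        e k (Ideal.Quotient.factor (Ideal.pow_le_pow_right h) x)) :
    ∃ F : AdicCompletion m R →ₐ[ℂ] AdicCompletion n S, ∀ k x,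
      AdicCompletion.evalₐ n k (F x) = e k (AdicCompletion.evalₐ m k x) :=
  ⟨AdicCompletion.liftAlgHom n
    (fun k => (e k).comp ((AdicCompletion.evalₐ m k).restrictScalars ℂ)) fun h =>
      AlgHom.ext fun x => (he h _).trans (congrArg (e _) (factor_evalA m h x)),
    fun k x => AdicCompletion.evalₐ_liftAlgHom n _ _ k x⟩

theorem cpl : CPL := by
  intro R S _ _ _ _ f m n h
  let g : ∀ k : ℕ, (R ⧸ m ^ k) →ₐ[ℂ] S ⧸ n ^ k := fun k =>
    Ideal.quotientMapₐ (n ^ k) f fun x hx => (h.mem k x).2 hx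
  have g1 : ∀ k x, g k (Ideal.Quotient.mk _ x) = Ideal.Quotient.mk _ (f x) := fun _ _ => rfl
  have g2 : ∀ k, Function.Bijective (g k) := by
    refine fun k => ⟨(injective_iff_map_eq_zero _).2 fun x hx => ?_, fun s => ?_⟩
    · obtain ⟨x, rfl⟩ := Ideal.Quotient.mk_surjective x
      rw [g1, Ideal.Quotient.eq_zero_iff_mem] at hx
      exact Ideal.Quotient.eq_zero_iff_mem.2 ((h.mem k x).1 hx)
    · obtain ⟨s, rfl⟩ := Ideal.Quotient.mk_surjective s
      obtain ⟨x, hx⟩ := h.dense k s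
      exact ⟨Ideal.Quotient.mk _ x, (Ideal.Quotient.eq.2 hx).symm⟩
  have g3 : ∀ {k l : ℕ} (h : k ≤ l) (x : R ⧸ m ^ l),
      Ideal.Quotient.factor (Ideal.pow_le_pow_right h) (g l x) =
        g k (Ideal.Quotient.factor (Ideal.pow_le_pow_right h) x) := by
    intro k l h x
    obtain ⟨x, rfl⟩ := Ideal.Quotient.mk_surjective x
    rfl
  let e : ∀ k : ℕ, (R ⧸ m ^ k) ≃ₐ[ℂ] S ⧸ n ^ k := fun k => AlgEquiv.ofBijective (g k) (g2 k)
  obtain ⟨F, hF⟩ := exists_lift m n g g3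
  obtain ⟨G, hG⟩ := exists_lift n m (fun k => (e k).symm.toAlgHom) fun {k l} h x => by
    obtain ⟨x, rfl⟩ := (e l).surjective x
    refine (congrArg _ ((e l).symm_apply_apply x)).trans ((e k).eq_symm_apply.2 ?_)
    exact (g3 h x).symm
  refine ⟨AlgEquiv.ofAlgHom F G (AlgHom.ext fun x => AdicCompletion.ext_evalₐ fun k => ?_)
    (AlgHom.ext fun x => AdicCompletion.ext_evalₐ fun k => ?_)⟩
  · exact (hF k _).trans ((congrArg (g k) (hG k x)).trans ((e k).apply_symm_apply _))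
  · exact (hG k _).trans ((congrArg (e k).symm (hF k x)).trans ((e k).symm_apply_apply _))

end Vale.Agent.P282A71
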